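namespace Vale.Agent.P154Q

def parts8 : List (Nat × Nat × Nat × Nat) :=
  [(0, 0, 0, 0), (1, 0, 0, 0), (2, 0, 0, 0), (1, 1, 0, 0), (3, 0, 0, 0), (2, 1, 0, 0), (1, 1, 1, 0),
  (4, 0, 0, 0), (3, 1, 0, 0), (2, 2, 0, 0), (2, 1, 1, 0), (1, 1, 1, 1), (5, 0, 0, 0), (4, 1, 0, 0),
  (3, 2, 0, 0), (3, 1, 1, 0), (2, 2, 1, 0), (2, 1, 1, 1), (6, 0, 0, 0), (5, 1, 0, 0), (4, 2, 0, 0),
  (4, 1, 1, 0), (3, 3, 0, 0), (3, 2, 1, 0), (3, 1, 1, 1), (2, 2, 2, 0), (2, 2, 1, 1), (7, 0, 0, 0),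
  (6, 1, 0, 0), (5, 2, 0, 0), (5, 1, 1, 0), (4, 3, 0, 0), (4, 2, 1, 0), (4, 1, 1, 1), (3, 3, 1, 0),
  (3, 2, 2, 0), (3, 2, 1, 1), (2, 2, 2, 1), (8, 0, 0, 0), (7, 1, 0, 0), (6, 2, 0, 0), (6, 1, 1, 0),
  (5, 3, 0, 0), (5, 2, 1, 0), (5, 1, 1, 1), (4, 4, 0, 0), (4, 3, 1, 0), (4, 2, 2, 0), (4, 2, 1, 1),
  (3, 3, 2, 0), (3, 3, 1, 1), (3, 2, 2, 1), (2, 2, 2, 2)]

/-- coefficients of 75 times the one-permutation polynomial bound in the symmetrised monomials -/
def fvecJ1 : List Int :=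
  [0, 50, 0, -4904, 0, 101888, 101888, 0, -579584, -579584, -2897920, -579584, 0, 1941504, 5824512,
  13590528, 23298048, 17473536, 0, -3805184, -15220736, -34246656, -11415552, -167428096, -60882944,
  -45662208, -148402176, 0, 3997696, 19988480, 43974656, 39976960, 279838720, 99942400, 199884800,
  319815680, 679608320, 359792640, 0, -1703936, -10223616, -22151168, -25559040, -173801472,
  -61341696, -17039360, -323747840, -255590400, -536739840, -357826560, -374865920, -1175715840,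
  -153354240]

/-- 24 times the function one -/
def vJ1one : List Int :=
  [1]

/-- 72 times the function a -/
def vJ1a : List Int :=
  [-1, 0, 16]

/-- 216 times the function a2 -/
def vJ1a2 : List Int :=
  [1, 0, -32, 0, 0, 0, 0, 64, 0, 192]

/-- 10800 times the function o -/
def vJ1o : List Int :=
  [107, 0, -2224, 0, 4800, 0, 0, -2752, 0, -8256]

/-- 54000 times the function oc -/
def vJ1oc : List Int :=
  [449, 0, -8368, 0, 24000, 0, 0, -19264, 0, -57792]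

/-- 21600 times the function g1 -/
def vJ1g1 : List Int :=
  [-5309, 0, 109408, 0, -99520, 0, 0, -63344, 0, -190032, 0, 89856, 147072, 0, 441216, 0, 0, 0,
  -83072, 0, 70272, 0, -272640, 0, 608256, 46848]

/-- 21600 times the function g2 -/
def vJ1g2 : List Int :=
  [-5825, 0, 131344, 0, -71168, 0, 0, -159760, 0, -479280, 0, 152832, 172672, 0, 518016, 0, 0, 0,
  -49536, 0, 109440, 0, -185088, 0, -141312, 72960]

/-- 54 times the function aE -/
def vJ1aE : List Int :=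
  [-1, 0, 20, 0, 0, 0, 0, -16, 0, -48]

/-- 162 times the function a2E -/
def vJ1a2E : List Int :=
  [1, 0, -36, 0, 0, 0, 0, 96, 0, 288, 0, 0, 0, 0, 0, 0, 0, 0, -64, 0, -576, 0, 0, 0, 0, -384]

def dvecJ1 : List Int := fvecJ1.map (fun c => (-648000) * c)

def FLJ1 : List (List Int × List Int) :=
  [(vJ1a.map (fun c => (675000) * c), vJ1one),
   (vJ1one.map (fun c => (675000) * c), vJ1a),
   (vJ1o.map (fun c => (-5) * c), vJ1g1),
   (vJ1g2.map (fun c => (-1) * c), vJ1oc),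
   (vJ1a2E.map (fun c => (-4000) * c), vJ1a),
   (vJ1aE.map (fun c => (-4000) * c), vJ1a2)]


end Vale.Agent.P154Q
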