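namespace Vale.Agent.P154Q

def parts10 : List (Nat × Nat × Nat × Nat) :=
  [(0, 0, 0, 0), (1, 0, 0, 0), (2, 0, 0, 0), (1, 1, 0, 0), (3, 0, 0, 0), (2, 1, 0, 0), (1, 1, 1, 0),
  (4, 0, 0, 0), (3, 1, 0, 0), (2, 2, 0, 0), (2, 1, 1, 0), (1, 1, 1, 1), (5, 0, 0, 0), (4, 1, 0, 0),
  (3, 2, 0, 0), (3, 1, 1, 0), (2, 2, 1, 0), (2, 1, 1, 1), (6, 0, 0, 0), (5, 1, 0, 0), (4, 2, 0, 0),
  (4, 1, 1, 0), (3, 3, 0, 0), (3, 2, 1, 0), (3, 1, 1, 1), (2, 2, 2, 0), (2, 2, 1, 1), (7, 0, 0, 0),
  (6, 1, 0, 0), (5, 2, 0, 0), (5, 1, 1, 0), (4, 3, 0, 0), (4, 2, 1, 0), (4, 1, 1, 1), (3, 3, 1, 0),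
  (3, 2, 2, 0), (3, 2, 1, 1), (2, 2, 2, 1), (8, 0, 0, 0), (7, 1, 0, 0), (6, 2, 0, 0), (6, 1, 1, 0),
  (5, 3, 0, 0), (5, 2, 1, 0), (5, 1, 1, 1), (4, 4, 0, 0), (4, 3, 1, 0), (4, 2, 2, 0), (4, 2, 1, 1),
  (3, 3, 2, 0), (3, 3, 1, 1), (3, 2, 2, 1), (2, 2, 2, 2), (9, 0, 0, 0), (8, 1, 0, 0), (7, 2, 0, 0),
  (7, 1, 1, 0), (6, 3, 0, 0), (6, 2, 1, 0), (6, 1, 1, 1), (5, 4, 0, 0), (5, 3, 1, 0), (5, 2, 2, 0),
  (5, 2, 1, 1), (4, 4, 1, 0), (4, 3, 2, 0), (4, 3, 1, 1), (4, 2, 2, 1), (3, 3, 3, 0), (3, 3, 2, 1),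
  (3, 2, 2, 2), (10, 0, 0, 0), (9, 1, 0, 0), (8, 2, 0, 0), (8, 1, 1, 0), (7, 3, 0, 0), (7, 2, 1, 0),
  (7, 1, 1, 1), (6, 4, 0, 0), (6, 3, 1, 0), (6, 2, 2, 0), (6, 2, 1, 1), (5, 5, 0, 0), (5, 4, 1, 0),
  (5, 3, 2, 0), (5, 3, 1, 1), (5, 2, 2, 1), (4, 4, 2, 0), (4, 4, 1, 1), (4, 3, 3, 0), (4, 3, 2, 1),
  (4, 2, 2, 2), (3, 3, 3, 1), (3, 3, 2, 2)]

/-- coefficients of 703125 times the one-permutation polynomial bound in the symmetrised monomials -/
def fvecJ2 : List Int :=
  [0, -234375, 10662540, -10662540, -154916112, -154916112, 682630224, 1206934656, 10008853344,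
  -520103584, -395853664, -2087933152, -5594443008, -98283357312, -53274076800, -316227796992,
  -278229529344, -290059762944, 16127517696, 452298318336, 597688585216, 2727081789440, 193772819968,
  8735260711936, 4436651922432, 2254607277056, 9806812267520, -29145354240, -1150104228864,
  -2469843936256, -10159980532736, -2271063103488, -48238534162432, -23408950934528, -30218781554688,
  -53838864572416, -147541221767168, -80224730793984, 32072712192, 1657917370368, 4970464223232,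
  19456224129024, 6500090744832, 123719136780288, 58235185446912, 3091325755392, 199806012235776,
  184388031946752, 487084080992256, 254997855559680, 331834748780544, 1115322273816576,
  153629368344576, -19627180032, -1268668907520, -4902207471616, -18727134937088, -8516118855680,
  -150092129959936, -69257941106688, -9388067700736, -303877496012800, -282712687312896,
  -728915761512448, -188702298112000, -1014446378680320, -1278968112496640, -2168588262277120,
  -242533706792960, -3029437131489280, -1673513717104640, 5117313024, 400097869824, 1896753135616,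
  7160696078336, 4146158370816, 69443916660736, 31616003735552, 5531622703104, 170725965299712,
  158896007938048, 402872787009536, 2897471537152, 258006296035328, 706868913897472, 872430184431616,
  1482253801095168, 454727308410880, 557244712550400, 662511566192640, 5350902353100800,
  1476649018982400, 1258922649845760, 3106589263790080]

/-- 24 times the function one -/
def vJ2one : List Int :=
  [1]

/-- 10800 times the function o -/
def vJ2o : List Int :=
  [107, 0, -2224, 0, 4800, 0, 0, -2752, 0, -8256]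

/-- 54000 times the function oc -/
def vJ2oc : List Int :=
  [449, 0, -8368, 0, 24000, 0, 0, -19264, 0, -57792]

/-- 108000 times the function h1 -/
def vJ2h1 : List Int :=
  [112591, 0, -2965124, 0, 2254128, 0, 0, 4786352, 0, 14359056, 0, -2265120, -7318592, 0,
  -21955776, 0, 0, 0, 2810368, 0, 1137024, 0, 8052096, 0, 6322176, 758016]

/-- 216000 times the function h2 -/
def vJ2h2 : List Int :=
  [257571, 0, -6479896, 0, 4378528, 0, 0, 10166864, 0, 30500592, 0, -8042880, -13731456, 0,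
  -41194368, 0, 0, 0, 4635712, 0, 1311552, 0, 13469952, 0, 37899264, 874368]

def dvecJ2 : List Int := fvecJ2.map (fun c => (3456) * c)

def FLJ2 : List (List Int × List Int) :=
  [(vJ2o.map (fun c => (-50) * c), vJ2h1),
   (vJ2h2.map (fun c => (-5) * c), vJ2oc)]


end Vale.Agent.P154Q
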