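import Vale.Agent.P154.Q.IdentA
import Vale.Agent.P154.Q.IdentB
import Vale.Agent.P154.Q.IdentC
import Vale.Agent.P154.Q.IdentD

namespace Vale.Agent.P154Q

open Vale.Agent.P154.Refl

section atoms
variable {x y z w : ℝ}

theorem ev_S4p : ev4 x y z w S4p = x + y + z + w := by
  simp only [S4p, ev4_add, ev4_X4, ev4_Y4, ev4_Z4, ev4_W4]
theorem ev_Q2p : ev4 x y z w Q2p = x ^ 2 + y ^ 2 + z ^ 2 + w ^ 2 := by
  simp only [Q2p, ev4_add, ev4_pow, ev4_X4, ev4_Y4, ev4_Z4, ev4_W4]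
theorem ev_Q3p : ev4 x y z w Q3p = x ^ 3 + y ^ 3 + z ^ 3 + w ^ 3 := by
  simp only [Q3p, ev4_add, ev4_pow, ev4_X4, ev4_Y4, ev4_Z4, ev4_W4]
theorem ev_E2p : ev4 x y z w E2p = x * y + x * z + x * w + y * z + y * w + z * w := by
  simp only [E2p, ev4_add, ev4_mul, ev4_X4, ev4_Y4, ev4_Z4, ev4_W4]
theorem ev_E3p : ev4 x y z w E3p = x * y * z + x * y * w + x * z * w + y * z * w := by
  simp only [E3p, ev4_add, ev4_mul, ev4_X4, ev4_Y4, ev4_Z4, ev4_W4]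
theorem ev_tau4 : ev4 x y z w tau4 = 4 * (x + y + z + w) - 1 := by
  simp only [tau4, ev4_sub, ev4_smul4, ev4_c4, ev_S4p]; push_cast; ring
theorem ev_a3p : ev4 x y z w a3p = 4 * (x ^ 2 + y ^ 2 + z ^ 2 + w ^ 2) - 1 := by
  simp only [a3p, ev4_sub, ev4_smul4, ev4_c4, ev_Q2p]; push_cast; ring
theorem ev_A3p : ev4 x y z w A3p
    = 8 * (x ^ 3 + y ^ 3 + z ^ 3 + w ^ 3) - 6 * (x ^ 2 + y ^ 2 + z ^ 2 + w ^ 2) + 1 := by
  simp only [A3p, ev4_add, ev4_sub, ev4_smul4, ev4_c4, ev_Q2p, ev_Q3p]; push_cast; ring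
theorem ev_W3p : ev4 x y z w W3p
    = 3 * ((x + y + z + w) * (x + y + z + w)) - 8 * (x * y + x * z + x * w + y * z + y * w + z * w) := by
  simp only [W3p, ev4_sub, ev4_smul4, ev4_mul, ev_S4p, ev_E2p]; push_cast; ring

end atoms

theorem hor_PJ (t : ℝ) : horR cPJ t = 100 * PJ t := by
  simp only [cPJ, horR]; unfold PJ; push_cast; ring
theorem hor_PA (t : ℝ) : horR cPA t = 100000 * PA t := by
  simp only [cPA, horR]; unfold PA; push_cast; ring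
theorem hor_PB (t : ℝ) : horR cPB t = 100000 * PB t := by
  simp only [cPB, horR]; unfold PB; push_cast; ring
theorem hor_PC (t : ℝ) : horR cPC t = 100000 * PC t := by
  simp only [cPC, horR]; unfold PC; push_cast; ring

theorem aF_four (v : V 4) : aF v = (4 * (v 0 ^ 2 + v 1 ^ 2 + v 2 ^ 2 + v 3 ^ 2) - 1) / 3 := by
  unfold aF
  rw [Fin.sum_univ_four]
  norm_num

theorem A4_four (v : V 4) : A4 v = (8 * (v 0 ^ 3 + v 1 ^ 3 + v 2 ^ 3 + v 3 ^ 3)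
    - 6 * (v 0 ^ 2 + v 1 ^ 2 + v 2 ^ 2 + v 3 ^ 2) + 1) / 3 := by
  unfold A4
  rw [Fin.sum_univ_four, Fin.sum_univ_four]

theorem lin_FJ1 (y : V 4) : linR fvecJ1 (MsL parts8 y) = 75 * FJ1 y := by
  rw [lin_eq _ _ _ zFJ1]
  simp only [UFJ1, ev4_sub, ev4_smul4, ev4_mul, ev4_hor4, ev_S4p, ev_E2p, ev_tau4, hor_PJ]
  unfold FJ1 Sf e2f
  push_cast
  ring

theorem lin_FJ2 (y : V 4) : linR fvecJ2 (MsL parts10 y) = 703125 * FJ2 y := by
  rw [lin_eq _ _ _ zFJ2]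
  simp only [UFJ2, ev4_add, ev4_sub, ev4_smul4, ev4_mul, ev4_hor4, ev_S4p, ev_E2p, ev_E3p, ev_W3p,
    ev_tau4, hor_PA, hor_PB, hor_PC]
  unfold FJ2 Sf e2f e3f
  generalize PA (4 * (y 0 + y 1 + y 2 + y 3) - 1) = a
  generalize PB (4 * (y 0 + y 1 + y 2 + y 3) - 1) = b
  generalize PC (4 * (y 0 + y 1 + y 2 + y 3) - 1) = c
  push_cast
  ring

theorem lin1_one (v : V 4) : linR vJ1one (MsL parts8 v) = 24 := by
  rw [lin_eq _ _ _ z1one]
  simp only [Uone, ev4_c4]; norm_num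

theorem lin1_a (v : V 4) : linR vJ1a (MsL parts8 v) = 72 * aF v := by
  rw [lin_eq _ _ _ z1a, aF_four]
  simp only [Ua, ev4_smul4, ev_a3p]; push_cast; ring

theorem lin1_a2 (v : V 4) : linR vJ1a2 (MsL parts8 v) = 216 * (aF v) ^ 2 := by
  rw [lin_eq _ _ _ z1a2, aF_four]
  simp only [Ua2, ev4_smul4, ev4_mul, ev_a3p]; push_cast; ring

theorem lin1_o (v : V 4) : linR vJ1o (MsL parts8 v) = 10800 * oK v := by
  rw [lin_eq _ _ _ z1o]
  unfold oK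
  rw [aF_four, A4_four]
  simp only [Uo, ev4_smul4, ev4_sub, ev4_mul, ev_a3p, ev_A3p]; push_cast; ring

theorem lin1_oc (v : V 4) : linR vJ1oc (MsL parts8 v) = 54000 * ocK v := by
  rw [lin_eq _ _ _ z1oc]
  unfold ocK
  rw [aF_four, A4_four]
  simp only [Uoc, ev4_smul4, ev4_sub, ev4_mul, ev_a3p, ev_A3p]; push_cast; ring

theorem lin1_aE (v : V 4) : linR vJ1aE (MsL parts8 v) = 54 * (aF v * (1 - aF v)) := by
  rw [lin_eq _ _ _ z1aE, aF_four]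
  simp only [UaE, ev4_smul4, ev4_sub, ev4_mul, ev4_c4, ev_a3p]; push_cast; ring

theorem lin1_a2E (v : V 4) : linR vJ1a2E (MsL parts8 v) = 162 * ((aF v) ^ 2 * (1 - aF v)) := by
  rw [lin_eq _ _ _ z1a2E, aF_four]
  simp only [Ua2E, ev4_smul4, ev4_sub, ev4_mul, ev4_c4, ev_a3p]; push_cast; ring

theorem lin2_o (v : V 4) : linR vJ2o (MsL parts10 v) = 10800 * oK v := by
  rw [lin_eq _ _ _ z2o]
  unfold oK
  rw [aF_four, A4_four]
  simp only [Uo, ev4_smul4, ev4_sub, ev4_mul, ev_a3p, ev_A3p]; push_cast; ring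

theorem lin2_oc (v : V 4) : linR vJ2oc (MsL parts10 v) = 54000 * ocK v := by
  rw [lin_eq _ _ _ z2oc]
  unfold ocK
  rw [aF_four, A4_four]
  simp only [Uoc, ev4_smul4, ev4_sub, ev4_mul, ev_a3p, ev_A3p]; push_cast; ring

end Vale.Agent.P154Q
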