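import Vale.Agent.P154.Q.Perm4
import Vale.Agent.P154.Q.Refl6

namespace Vale.Agent.P154Q

open Finset Equiv
open Vale.Agent.P154.Refl

/-- exponent vectors -/
abbrev Ex4 := ℕ × ℕ × ℕ × ℕ

def Ex4.deg (b : Ex4) : ℕ := b.1 + b.2.1 + b.2.2.1 + b.2.2.2

noncomputable def mo (b : Ex4) (x0 x1 x2 x3 : ℝ) : ℝ :=
  x0 ^ b.1 * x1 ^ b.2.1 * x2 ^ b.2.2.1 * x3 ^ b.2.2.2

/-- the monomial with exponents `b`, summed over all relabelings of the four coordinates -/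
noncomputable def Ms (b : Ex4) (v : V 4) : ℝ :=
  ∑ s : Perm (Fin 4), mo b (v (s 0)) (v (s 1)) (v (s 2)) (v (s 3))

theorem mo_mul (b : Ex4) (x0 x1 x2 x3 y0 y1 y2 y3 : ℝ) :
    mo b (x0 * y0) (x1 * y1) (x2 * y2) (x3 * y3) = mo b x0 x1 x2 x3 * mo b y0 y1 y2 y3 := by
  unfold mo
  simp only [mul_pow]
  ring

theorem Ms_comp (b : Ex4) (v : V 4) (g : Perm (Fin 4)) : Ms b (v ∘ g) = Ms b v := by
  unfold Ms
  exact Fintype.sum_equiv (Equiv.mulLeft g) _ _ (fun s => rfl)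

theorem Ms_shift (b : Ex4) (v : V 4) (t : Perm (Fin 4)) :
    ∑ s : Perm (Fin 4), mo b (v (s (t 0))) (v (s (t 1))) (v (s (t 2))) (v (s (t 3))) = Ms b v := by
  unfold Ms
  exact Fintype.sum_equiv (Equiv.mulRight t) _ _ (fun s => rfl)

/-- the sum over relabelings of a symmetrised monomial of a product is a product -/
theorem sum_Ms_mul (b : Ex4) (p r : V 4) :
    ∑ s : Perm (Fin 4), Ms b (fun i => p i * r (s i)) = Ms b p * Ms b r := by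
  unfold Ms
  simp only [mo_mul]
  rw [Finset.sum_comm]
  simp only [← Finset.mul_sum]
  have h : ∀ t : Perm (Fin 4),
      ∑ s : Perm (Fin 4), mo b (r (s (t 0))) (r (s (t 1))) (r (s (t 2))) (r (s (t 3))) = Ms b r :=
    fun t => Ms_shift b r t
  simp only [h]
  rw [← Finset.sum_mul]
  rfl

theorem mo_smul (b : Ex4) (k x0 x1 x2 x3 : ℝ) :
    mo b (k * x0) (k * x1) (k * x2) (k * x3) = k ^ b.deg * mo b x0 x1 x2 x3 := by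
  unfold mo Ex4.deg
  simp only [mul_pow, pow_add]
  ring

theorem Ms_smul (b : Ex4) (k : ℝ) (v : V 4) : Ms b (fun i => k * v i) = k ^ b.deg * Ms b v := by
  unfold Ms
  simp only [mo_smul]
  rw [Finset.mul_sum]

/-- explicit form -/
noncomputable def MsE (b : Ex4) (a0 a1 a2 a3 : ℝ) : ℝ :=
  mo b (a0) (a1) (a2) (a3) +
  mo b (a0) (a1) (a3) (a2) +
  mo b (a0) (a2) (a1) (a3) +
  mo b (a0) (a2) (a3) (a1) +
  mo b (a0) (a3) (a1) (a2) +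
  mo b (a0) (a3) (a2) (a1) +
  mo b (a1) (a0) (a2) (a3) +
  mo b (a1) (a0) (a3) (a2) +
  mo b (a1) (a2) (a0) (a3) +
  mo b (a1) (a2) (a3) (a0) +
  mo b (a1) (a3) (a0) (a2) +
  mo b (a1) (a3) (a2) (a0) +
  mo b (a2) (a0) (a1) (a3) +
  mo b (a2) (a0) (a3) (a1) +
  mo b (a2) (a1) (a0) (a3) +
  mo b (a2) (a1) (a3) (a0) +
  mo b (a2) (a3) (a0) (a1) +
  mo b (a2) (a3) (a1) (a0) +
  mo b (a3) (a0) (a1) (a2) +
  mo b (a3) (a0) (a2) (a1) +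
  mo b (a3) (a1) (a0) (a2) +
  mo b (a3) (a1) (a2) (a0) +
  mo b (a3) (a2) (a0) (a1) +
  mo b (a3) (a2) (a1) (a0)

theorem Ms_eq (b : Ex4) (v : V 4) : Ms b v = MsE b (v 0) (v 1) (v 2) (v 3) := by
  unfold Ms MsE
  exact sum_perm4 v (mo b)

theorem Ms_vec (b : Ex4) (a0 a1 a2 a3 : ℝ) : Ms b ![a0, a1, a2, a3] = MsE b a0 a1 a2 a3 := by
  rw [Ms_eq]
  rfl

def mo3 (b : Ex4) (f0 f1 f2 f3 : P3) : P3 :=
  mul3 (mul3 (mul3 (pow3 f0 b.1) (pow3 f1 b.2.1)) (pow3 f2 b.2.2.1)) (pow3 f3 b.2.2.2)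

def Ms3 (b : Ex4) (f0 f1 f2 f3 : P3) : P3 :=
  add3 (add3 (add3 (add3 (add3 (add3 (add3 (add3 (add3 (add3 (add3 (add3 (add3 (add3 (add3 (add3 (add3 (add3 (add3 (add3 (add3 (add3 (add3 (mo3 b f0 f1 f2 f3) (mo3 b f0 f1 f3 f2)) (mo3 b f0 f2 f1 f3)) (mo3 b f0 f2 f3 f1)) (mo3 b f0 f3 f1 f2)) (mo3 b f0 f3 f2 f1)) (mo3 b f1 f0 f2 f3)) (mo3 b f1 f0 f3 f2)) (mo3 b f1 f2 f0 f3)) (mo3 b f1 f2 f3 f0)) (mo3 b f1 f3 f0 f2)) (mo3 b f1 f3 f2 f0)) (mo3 b f2 f0 f1 f3)) (mo3 b f2 f0 f3 f1)) (mo3 b f2 f1 f0 f3)) (mo3 b f2 f1 f3 f0)) (mo3 b f2 f3 f0 f1)) (mo3 b f2 f3 f1 f0)) (mo3 b f3 f0 f1 f2)) (mo3 b f3 f0 f2 f1)) (mo3 b f3 f1 f0 f2)) (mo3 b f3 f1 f2 f0)) (mo3 b f3 f2 f0 f1)) (mo3 b f3 f2 f1 f0)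

def mo4 (b : Ex4) (f0 f1 f2 f3 : P4) : P4 :=
  mul4 (mul4 (mul4 (pow4 f0 b.1) (pow4 f1 b.2.1)) (pow4 f2 b.2.2.1)) (pow4 f3 b.2.2.2)

def Ms4 (b : Ex4) (f0 f1 f2 f3 : P4) : P4 :=
  add4 (add4 (add4 (add4 (add4 (add4 (add4 (add4 (add4 (add4 (add4 (add4 (add4 (add4 (add4 (add4 (add4 (add4 (add4 (add4 (add4 (add4 (add4 (mo4 b f0 f1 f2 f3) (mo4 b f0 f1 f3 f2)) (mo4 b f0 f2 f1 f3)) (mo4 b f0 f2 f3 f1)) (mo4 b f0 f3 f1 f2)) (mo4 b f0 f3 f2 f1)) (mo4 b f1 f0 f2 f3)) (mo4 b f1 f0 f3 f2)) (mo4 b f1 f2 f0 f3)) (mo4 b f1 f2 f3 f0)) (mo4 b f1 f3 f0 f2)) (mo4 b f1 f3 f2 f0)) (mo4 b f2 f0 f1 f3)) (mo4 b f2 f0 f3 f1)) (mo4 b f2 f1 f0 f3)) (mo4 b f2 f1 f3 f0)) (mo4 b f2 f3 f0 f1)) (mo4 b f2 f3 f1 f0)) (mo4 b f3 f0 f1 f2)) (mo4 b f3 f0 f2 f1)) (mo4 b f3 f1 f0 f2)) (mo4 b f3 f1 f2 f0)) (mo4 b f3 f2 f0 f1)) (mo4 b f3 f2 f1 f0)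

theorem ev3_mo3 {x y z : ℝ} (b : Ex4) (f0 f1 f2 f3 : P3) :
    ev3 x y z (mo3 b f0 f1 f2 f3) = mo b (ev3 x y z f0) (ev3 x y z f1) (ev3 x y z f2) (ev3 x y z f3) := by
  simp only [mo3, mo, ev3_mul, ev3_pow]

theorem ev3_Ms3 {x y z : ℝ} (b : Ex4) (f0 f1 f2 f3 : P3) :
    ev3 x y z (Ms3 b f0 f1 f2 f3)
      = MsE b (ev3 x y z f0) (ev3 x y z f1) (ev3 x y z f2) (ev3 x y z f3) := by
  simp only [Ms3, MsE, ev3_add, ev3_mo3]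

theorem ev4_mo4 {x y z w : ℝ} (b : Ex4) (f0 f1 f2 f3 : P4) :
    ev4 x y z w (mo4 b f0 f1 f2 f3)
      = mo b (ev4 x y z w f0) (ev4 x y z w f1) (ev4 x y z w f2) (ev4 x y z w f3) := by
  simp only [mo4, mo, ev4_mul, ev4_pow]

theorem ev4_Ms4 {x y z w : ℝ} (b : Ex4) (f0 f1 f2 f3 : P4) :
    ev4 x y z w (Ms4 b f0 f1 f2 f3)
      = MsE b (ev4 x y z w f0) (ev4 x y z w f1) (ev4 x y z w f2) (ev4 x y z w f3) := by
  simp only [Ms4, MsE, ev4_add, ev4_mo4]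

/-- list of symmetrised monomials -/
noncomputable def MsL (bs : List Ex4) (v : V 4) : List ℝ := bs.map (fun b => Ms b v)

theorem sum_linR_MsL (p r : V 4) : ∀ (cs : List ℤ) (bs : List Ex4),
    ∑ s : Perm (Fin 4), linR cs (MsL bs (fun i => p i * r (s i))) = diagR cs (MsL bs p) (MsL bs r)
  | c :: cs, b :: bs => by
      have ih := sum_linR_MsL p r cs bs
      simp only [MsL] at ih
      simp only [MsL, List.map_cons, linR, diagR, Finset.sum_add_distrib, ← Finset.mul_sum,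
        sum_Ms_mul, ih]
  | [], _ => by simp [linR, diagR]
  | _ :: _, [] => by simp [MsL, linR, diagR]

end Vale.Agent.P154Q
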