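import Vale.Agent.P154.Q.Alg

namespace Vale.Agent.P154Q

open Finset Equiv

/-- the permutation of `Fin 4` with the given table of values and table of inverse values -/
def mkP (f g : Fin 4 → Fin 4) (h1 : ∀ x, g (f x) = x) (h2 : ∀ x, f (g x) = x) : Perm (Fin 4) :=
  ⟨f, g, h1, h2⟩

def pm0 : Perm (Fin 4) := mkP ![0, 1, 2, 3] ![0, 1, 2, 3] (by decide) (by decide)
def pm1 : Perm (Fin 4) := mkP ![0, 1, 3, 2] ![0, 1, 3, 2] (by decide) (by decide)
def pm2 : Perm (Fin 4) := mkP ![0, 2, 1, 3] ![0, 2, 1, 3] (by decide) (by decide)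
def pm3 : Perm (Fin 4) := mkP ![0, 2, 3, 1] ![0, 3, 1, 2] (by decide) (by decide)
def pm4 : Perm (Fin 4) := mkP ![0, 3, 1, 2] ![0, 2, 3, 1] (by decide) (by decide)
def pm5 : Perm (Fin 4) := mkP ![0, 3, 2, 1] ![0, 3, 2, 1] (by decide) (by decide)
def pm6 : Perm (Fin 4) := mkP ![1, 0, 2, 3] ![1, 0, 2, 3] (by decide) (by decide)
def pm7 : Perm (Fin 4) := mkP ![1, 0, 3, 2] ![1, 0, 3, 2] (by decide) (by decide)
def pm8 : Perm (Fin 4) := mkP ![1, 2, 0, 3] ![2, 0, 1, 3] (by decide) (by decide)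
def pm9 : Perm (Fin 4) := mkP ![1, 2, 3, 0] ![3, 0, 1, 2] (by decide) (by decide)
def pm10 : Perm (Fin 4) := mkP ![1, 3, 0, 2] ![2, 0, 3, 1] (by decide) (by decide)
def pm11 : Perm (Fin 4) := mkP ![1, 3, 2, 0] ![3, 0, 2, 1] (by decide) (by decide)
def pm12 : Perm (Fin 4) := mkP ![2, 0, 1, 3] ![1, 2, 0, 3] (by decide) (by decide)
def pm13 : Perm (Fin 4) := mkP ![2, 0, 3, 1] ![1, 3, 0, 2] (by decide) (by decide)
def pm14 : Perm (Fin 4) := mkP ![2, 1, 0, 3] ![2, 1, 0, 3] (by decide) (by decide)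
def pm15 : Perm (Fin 4) := mkP ![2, 1, 3, 0] ![3, 1, 0, 2] (by decide) (by decide)
def pm16 : Perm (Fin 4) := mkP ![2, 3, 0, 1] ![2, 3, 0, 1] (by decide) (by decide)
def pm17 : Perm (Fin 4) := mkP ![2, 3, 1, 0] ![3, 2, 0, 1] (by decide) (by decide)
def pm18 : Perm (Fin 4) := mkP ![3, 0, 1, 2] ![1, 2, 3, 0] (by decide) (by decide)
def pm19 : Perm (Fin 4) := mkP ![3, 0, 2, 1] ![1, 3, 2, 0] (by decide) (by decide)
def pm20 : Perm (Fin 4) := mkP ![3, 1, 0, 2] ![2, 1, 3, 0] (by decide) (by decide)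
def pm21 : Perm (Fin 4) := mkP ![3, 1, 2, 0] ![3, 1, 2, 0] (by decide) (by decide)
def pm22 : Perm (Fin 4) := mkP ![3, 2, 0, 1] ![2, 3, 1, 0] (by decide) (by decide)
def pm23 : Perm (Fin 4) := mkP ![3, 2, 1, 0] ![3, 2, 1, 0] (by decide) (by decide)

theorem univ_perm4 : (Finset.univ : Finset (Perm (Fin 4))) =
    {pm0, pm1, pm2, pm3, pm4, pm5, pm6, pm7, pm8, pm9, pm10, pm11, pm12, pm13, pm14, pm15, pm16, pm17, pm18, pm19, pm20, pm21, pm22, pm23} := by
  decide +kernel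

theorem sum_perm4 (r : Fin 4 → ℝ) (Φ : ℝ → ℝ → ℝ → ℝ → ℝ) :
    ∑ s : Perm (Fin 4), Φ (r (s 0)) (r (s 1)) (r (s 2)) (r (s 3)) =
      Φ (r 0) (r 1) (r 2) (r 3) +
      Φ (r 0) (r 1) (r 3) (r 2) +
      Φ (r 0) (r 2) (r 1) (r 3) +
      Φ (r 0) (r 2) (r 3) (r 1) +
      Φ (r 0) (r 3) (r 1) (r 2) +
      Φ (r 0) (r 3) (r 2) (r 1) +
      Φ (r 1) (r 0) (r 2) (r 3) +
      Φ (r 1) (r 0) (r 3) (r 2) +
      Φ (r 1) (r 2) (r 0) (r 3) +
      Φ (r 1) (r 2) (r 3) (r 0) +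
      Φ (r 1) (r 3) (r 0) (r 2) +
      Φ (r 1) (r 3) (r 2) (r 0) +
      Φ (r 2) (r 0) (r 1) (r 3) +
      Φ (r 2) (r 0) (r 3) (r 1) +
      Φ (r 2) (r 1) (r 0) (r 3) +
      Φ (r 2) (r 1) (r 3) (r 0) +
      Φ (r 2) (r 3) (r 0) (r 1) +
      Φ (r 2) (r 3) (r 1) (r 0) +
      Φ (r 3) (r 0) (r 1) (r 2) +
      Φ (r 3) (r 0) (r 2) (r 1) +
      Φ (r 3) (r 1) (r 0) (r 2) +
      Φ (r 3) (r 1) (r 2) (r 0) +
      Φ (r 3) (r 2) (r 0) (r 1) +
      Φ (r 3) (r 2) (r 1) (r 0) := by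
  rw [univ_perm4]
  rw [Finset.sum_insert (by decide +kernel), Finset.sum_insert (by decide +kernel), Finset.sum_insert (by decide +kernel), Finset.sum_insert (by decide +kernel), Finset.sum_insert (by decide +kernel), Finset.sum_insert (by decide +kernel), Finset.sum_insert (by decide +kernel), Finset.sum_insert (by decide +kernel), Finset.sum_insert (by decide +kernel), Finset.sum_insert (by decide +kernel), Finset.sum_insert (by decide +kernel), Finset.sum_insert (by decide +kernel), Finset.sum_insert (by decide +kernel), Finset.sum_insert (by decide +kernel), Finset.sum_insert (by decide +kernel), Finset.sum_insert (by decide +kernel), Finset.sum_insert (by decide +kernel), Finset.sum_insert (by decide +kernel), Finset.sum_insert (by decide +kernel), Finset.sum_insert (by decide +kernel), Finset.sum_insert (by decide +kernel), Finset.sum_insert (by decide +kernel), Finset.sum_insert (by decide +kernel),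 Finset.sum_singleton]
  simp only [← add_assoc]
  rfl

/-- one term of the average over relabelings -/
noncomputable def mT (f : V 4 → ℝ) (p : V 4) (a b c d : ℝ) : ℝ :=
  Dm p ![a, b, c, d] * f (merge p ![a, b, c, d])

theorem comp_perm4 (r : V 4) (s : Perm (Fin 4)) :
    r ∘ s = ![r (s 0), r (s 1), r (s 2), r (s 3)] := by
  funext i
  fin_cases i <;> rfl

theorem avgM_four (f : V 4 → ℝ) (p r : V 4) :
    avgM f p r = (mT f p (r 0) (r 1) (r 2) (r 3) +
      mT f p (r 0) (r 1) (r 3) (r 2) +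
      mT f p (r 0) (r 2) (r 1) (r 3) +
      mT f p (r 0) (r 2) (r 3) (r 1) +
      mT f p (r 0) (r 3) (r 1) (r 2) +
      mT f p (r 0) (r 3) (r 2) (r 1) +
      mT f p (r 1) (r 0) (r 2) (r 3) +
      mT f p (r 1) (r 0) (r 3) (r 2) +
      mT f p (r 1) (r 2) (r 0) (r 3) +
      mT f p (r 1) (r 2) (r 3) (r 0) +
      mT f p (r 1) (r 3) (r 0) (r 2) +
      mT f p (r 1) (r 3) (r 2) (r 0) +
      mT f p (r 2) (r 0) (r 1) (r 3) +
      mT f p (r 2) (r 0) (r 3) (r 1) +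
      mT f p (r 2) (r 1) (r 0) (r 3) +
      mT f p (r 2) (r 1) (r 3) (r 0) +
      mT f p (r 2) (r 3) (r 0) (r 1) +
      mT f p (r 2) (r 3) (r 1) (r 0) +
      mT f p (r 3) (r 0) (r 1) (r 2) +
      mT f p (r 3) (r 0) (r 2) (r 1) +
      mT f p (r 3) (r 1) (r 0) (r 2) +
      mT f p (r 3) (r 1) (r 2) (r 0) +
      mT f p (r 3) (r 2) (r 0) (r 1) +
      mT f p (r 3) (r 2) (r 1) (r 0)) / 24 := by
  unfold avgM
  have e : ((Nat.factorial 4 : ℕ) : ℝ) = 24 := by norm_num [Nat.factorial]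
  rw [e, ← sum_perm4 r (mT f p)]
  congr 1
  refine Finset.sum_congr rfl fun s _ => ?_
  rw [comp_perm4]
  rfl

instance fact_two_le_four : Fact (2 ≤ 4) := ⟨by norm_num⟩

end Vale.Agent.P154Q
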